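import Mathlib

/-!
# P355: arithmetic in the ring generated by the `N`-th roots of unity
-/

namespace P355

/-- the `N`-th roots of unity -/
def mu (N : ℕ) : Set ℂ := {w | w ^ N = 1}

theorem conj_mem {N : ℕ} {x : ℂ} (hx : x ∈ Algebra.adjoin ℤ (mu N)) :
    starRingEnd ℂ x ∈ Algebra.adjoin ℤ (mu N) := by
  induction hx using Algebra.adjoin_induction with
  | mem x hx =>
    refine Algebra.subset_adjoin ?_
    have h1 : x ^ N = 1 := hx
    change (starRingEnd ℂ x) ^ N = 1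
    rw [← map_pow, h1, map_one]
  | algebraMap r =>
    have h1 : starRingEnd ℂ (algebraMap ℤ ℂ r) = algebraMap ℤ ℂ r := by simp
    rw [h1]
    exact Subalgebra.algebraMap_mem _ r
  | add x y _ _ hx hy =>
    rw [map_add]
    exact add_mem hx hy
  | mul x y _ _ hx hy =>
    rw [map_mul]
    exact mul_mem hx hy

theorem frob {N p j : ℕ} (hp : p.Prime) (hN0 : N ≠ 0) (hN : N ∣ p ^ j + 1) {x : ℂ}
    (hx : x ∈ Algebra.adjoin ℤ (mu N)) :
    ∃ r ∈ Algebra.adjoin ℤ (mu N), x ^ (p ^ j) = starRingEnd ℂ x + p * r := by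
  induction hx using Algebra.adjoin_induction with
  | mem x hx =>
    refine ⟨0, zero_mem _, ?_⟩
    have h1 : x ^ N = 1 := hx
    have h2 : x ^ (p ^ j + 1) = 1 := by
      obtain ⟨c, hc⟩ := hN
      rw [hc, pow_mul, h1, one_pow]
    have h3 : ‖x‖ = 1 := Complex.norm_eq_one_of_pow_eq_one h1 hN0
    have h4 : starRingEnd ℂ x * x = 1 := by
      rw [mul_comm, Complex.mul_conj, Complex.normSq_eq_norm_sq, h3]
      simp
    have hx0 : x ≠ 0 := by
      intro h
      rw [h] at h3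
      simp at h3
    rw [mul_zero, add_zero]
    have h5 : x ^ (p ^ j) * x = starRingEnd ℂ x * x := by rw [← pow_succ, h2, h4]
    exact mul_right_cancel₀ hx0 h5
  | algebraMap r =>
    have : Fact p.Prime := ⟨hp⟩
    have h1 : (p : ℤ) ∣ r ^ (p ^ j) - r := by
      rw [← ZMod.intCast_zmod_eq_zero_iff_dvd]
      push_cast
      rw [ZMod.pow_card_pow, sub_self]
    obtain ⟨c, hc⟩ := h1
    refine ⟨algebraMap ℤ ℂ c, Subalgebra.algebraMap_mem _ c, ?_⟩
    have h2 : starRingEnd ℂ (algebraMap ℤ ℂ r) = algebraMap ℤ ℂ r := by simp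
    rw [h2]
    have h3 : r ^ (p ^ j) = r + p * c := by linarith
    have h4 := congrArg (algebraMap ℤ ℂ) h3
    simpa using h4
  | add x y hx' hy' hx hy =>
    obtain ⟨r, hr, hr2⟩ := hx
    obtain ⟨r', hr', hr2'⟩ := hy
    obtain ⟨q, hq⟩ := exists_add_pow_prime_pow_eq hp
      (⟨x, hx'⟩ : Algebra.adjoin ℤ (mu N)) ⟨y, hy'⟩ j
    have hq2 := congrArg (Subtype.val) hq
    push_cast at hq2
    refine ⟨r + r' + x * y * q, ?_, ?_⟩
    · exact add_mem (add_mem hr hr') (mul_mem (mul_mem hx' hy') q.2)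
    · rw [hq2, hr2, hr2', map_add]
      ring
  | mul x y hx' hy' hx hy =>
    obtain ⟨r, hr, hr2⟩ := hx
    obtain ⟨r', hr', hr2'⟩ := hy
    refine ⟨starRingEnd ℂ x * r' + r * starRingEnd ℂ y + p * r * r', ?_, ?_⟩
    · refine add_mem (add_mem (mul_mem (conj_mem hx') hr') (mul_mem hr (conj_mem hy'))) ?_
      exact mul_mem (mul_mem (natCast_mem _ p) hr) hr'
    · rw [mul_pow, hr2, hr2', map_mul]
      ring

/-- if `p` divides `s * conj s` then `p` divides `s` -/
theorem self_conj {N p j : ℕ} (hp : p.Prime) (hj : 1 ≤ j) (hN0 : N ≠ 0) (hN : N ∣ p ^ j + 1)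
    {s : ℂ} (hs : s ∈ Algebra.adjoin ℤ (mu N))
    (h : ∃ r ∈ Algebra.adjoin ℤ (mu N), s * starRingEnd ℂ s = p * r) :
    ∃ r ∈ Algebra.adjoin ℤ (mu N), s = p * r := by
  obtain ⟨r0, hr0, hs0⟩ := h
  obtain ⟨r1, hr1, hs1⟩ := frob hp hN0 hN hs
  obtain ⟨r2, hr2, hs2⟩ := frob hp hN0 hN (pow_mem hs (p ^ j))
  have h1 : s ^ (p ^ j + 1) = p * (r0 + s * r1) := by
    rw [pow_succ, hs1]
    linear_combination hs0
  have hpj : 2 ≤ p ^ j := le_trans hp.two_le (Nat.le_self_pow (by omega) p)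
  have h2 : p ^ j + 1 ≤ p ^ j * p ^ j := by nlinarith
  have h3 : (s ^ (p ^ j)) ^ (p ^ j) = s ^ (p ^ j + 1) * s ^ (p ^ j * p ^ j - (p ^ j + 1)) := by
    calc (s ^ (p ^ j)) ^ (p ^ j) = s ^ (p ^ j * p ^ j) := (pow_mul _ _ _).symm
      _ = s ^ ((p ^ j + 1) + (p ^ j * p ^ j - (p ^ j + 1))) := by rw [Nat.add_sub_cancel' h2]
      _ = _ := pow_add _ _ _
  have h4 : starRingEnd ℂ (s ^ (p ^ j)) = s + p * starRingEnd ℂ r1 := by
    rw [hs1, map_add, map_mul]
    simp
  rw [h3, h1, h4] at hs2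
  refine ⟨(r0 + s * r1) * s ^ (p ^ j * p ^ j - (p ^ j + 1)) - starRingEnd ℂ r1 - r2, ?_, ?_⟩
  · exact sub_mem (sub_mem (mul_mem (add_mem hr0 (mul_mem hs hr1)) (pow_mem hs _))
      (conj_mem hr1)) hr2
  · linear_combination -hs2

theorem integral {N : ℕ} (hN0 : N ≠ 0) {x : ℂ} (hx : x ∈ Algebra.adjoin ℤ (mu N)) :
    IsIntegral ℤ x := by
  induction hx using Algebra.adjoin_induction with
  | mem x hx =>
    have h1 : x ^ N = 1 := hx
    exact IsIntegral.of_pow (Nat.pos_of_ne_zero hN0) (by rw [h1]; exact isIntegral_one)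
  | algebraMap r => exact isIntegral_algebraMap
  | add x y _ _ hx hy => exact hx.add hy
  | mul x y _ _ hx hy => exact hx.mul hy

theorem rat_int {N : ℕ} (hN0 : N ≠ 0) (q : ℚ) (hx : (q : ℂ) ∈ Algebra.adjoin ℤ (mu N)) :
    ∃ c : ℤ, (c : ℚ) = q := by
  have h1 := integral hN0 hx
  have h2 : IsIntegral ℤ q := by
    have h3 : (q : ℂ) = algebraMap ℚ ℂ q := rfl
    rw [h3] at h1
    exact (isIntegral_algebraMap_iff (algebraMap ℚ ℂ).injective).1 h1
  obtain ⟨c, hc⟩ := IsIntegrallyClosed.isIntegral_iff.1 h2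
  exact ⟨c, by simpa using hc⟩

/-- `s * conj s = M` forces `v_p(M)` to be even -/
theorem even_val {N p j : ℕ} (hp : p.Prime) (hj : 1 ≤ j) (hN0 : N ≠ 0) (hN : N ∣ p ^ j + 1) :
    ∀ (M : ℕ), M ≠ 0 → ∀ s ∈ Algebra.adjoin ℤ (mu N), s * starRingEnd ℂ s = M →
      Even (padicValNat p M) := by
  have : Fact p.Prime := ⟨hp⟩
  intro M
  induction M using Nat.strong_induction_on with
  | _ M ih =>
    intro hM s hs hsM
    by_cases hpM : p ∣ M
    · obtain ⟨M', hM'⟩ := hpM
      obtain ⟨r, hr, hsr⟩ := self_conj hp hj hN0 hN hs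
        ⟨M', natCast_mem _ M', by rw [hsM, hM']; push_cast; ring⟩
      have hp0 : (p : ℂ) ≠ 0 := by exact_mod_cast hp.ne_zero
      have h1 : r * starRingEnd ℂ r = ((M' : ℚ) / p : ℚ) := by
        have h2 : (p : ℂ) * (p : ℂ) * (r * starRingEnd ℂ r) = p * M' := by
          have h3 := hsM
          rw [hsr, map_mul, hM'] at h3
          push_cast at h3
          simp only [Complex.conj_natCast] at h3
          linear_combination h3
        push_cast
        field_simp
        have h4 : (p : ℂ) * (p * (r * starRingEnd ℂ r)) = p * M' := by linear_combination h2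
        have h5 := mul_left_cancel₀ hp0 h4
        linear_combination h5
      obtain ⟨c, hc⟩ := rat_int hN0 ((M' : ℚ) / p) (by
        rw [← h1]
        exact mul_mem hr (conj_mem hr))
      have hpQ : (p : ℚ) ≠ 0 := by exact_mod_cast hp.ne_zero
      have h6 : (M' : ℚ) = p * c := by
        field_simp at hc
        linarith
      have h7 : (M' : ℤ) = p * c := by exact_mod_cast h6
      have h8 : (p : ℤ) ∣ (M' : ℤ) := ⟨c, h7⟩
      have h9 : p ∣ M' := by exact_mod_cast h8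
      obtain ⟨M'', hM''⟩ := h9
      have hM''0 : M'' ≠ 0 := by
        rintro rfl
        rw [hM'', mul_zero, mul_zero] at hM'
        exact hM hM'
      have h10 : M'' < M := by
        rw [hM', hM'']
        have := hp.two_le
        have h11 : 0 < M'' := Nat.pos_of_ne_zero hM''0
        nlinarith [Nat.mul_le_mul this this, Nat.mul_le_mul_right M'' this]
      have h12 : r * starRingEnd ℂ r = M'' := by
        rw [h1, hM'']
        push_cast
        field_simp
      have h13 := ih M'' h10 hM''0 r hr h12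
      have h14 : padicValNat p M = padicValNat p M'' + 2 := by
        rw [hM', hM'', padicValNat.mul hp.ne_zero (mul_ne_zero hp.ne_zero hM''0),
          padicValNat.mul hp.ne_zero hM''0, padicValNat_self]
        ring
      rw [h14]
      exact h13.add even_two
    · rw [padicValNat.eq_zero_of_not_dvd hpM]
      exact ⟨0, rfl⟩

theorem clear_den {N : ℕ} {z : ℂ} (hz : z ∈ Algebra.adjoin ℚ (mu N)) :
    ∃ t : ℕ, t ≠ 0 ∧ (t : ℂ) * z ∈ Algebra.adjoin ℤ (mu N) := by
  induction hz using Algebra.adjoin_induction with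
  | mem x hx => exact ⟨1, one_ne_zero, by simpa using Algebra.subset_adjoin hx⟩
  | algebraMap q =>
    refine ⟨q.den, q.den_nz, ?_⟩
    have h1 : ((q.den : ℕ) : ℂ) * algebraMap ℚ ℂ q = algebraMap ℤ ℂ q.num := by
      have h2 : (q.den : ℚ) * q = q.num := Rat.den_mul_eq_num q
      have h3 : ((q.den : ℚ) : ℂ) * (q : ℂ) = ((q.num : ℚ) : ℂ) := by rw [← h2]; push_cast; rfl
      change ((q.den : ℕ) : ℂ) * (q : ℂ) = _
      rw [eq_intCast]
      simpa using h3
    rw [h1]
    exact Subalgebra.algebraMap_mem _ _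
  | add x y _ _ hx hy =>
    obtain ⟨t, ht, h⟩ := hx
    obtain ⟨t', ht', h'⟩ := hy
    refine ⟨t * t', mul_ne_zero ht ht', ?_⟩
    have h1 : ((t * t' : ℕ) : ℂ) * (x + y) = t' * (t * x) + t * (t' * y) := by push_cast; ring
    rw [h1]
    exact add_mem (mul_mem (natCast_mem _ _) h) (mul_mem (natCast_mem _ _) h')
  | mul x y _ _ hx hy =>
    obtain ⟨t, ht, h⟩ := hx
    obtain ⟨t', ht', h'⟩ := hy
    refine ⟨t * t', mul_ne_zero ht ht', ?_⟩
    have h1 : ((t * t' : ℕ) : ℂ) * (x * y) = (t * x) * (t' * y) := by push_cast; ring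
    rw [h1]
    exact mul_mem h h'

/-- a natural number that is the squared modulus of an element of `ℚ(ζ_N)` has even `p`-adic
valuation when `N ∣ p^j + 1` -/
theorem norm_even {N p j : ℕ} (hp : p.Prime) (hj : 1 ≤ j) (hN0 : N ≠ 0) (hN : N ∣ p ^ j + 1)
    (D : ℕ) (hD : D ≠ 0) {z : ℂ} (hz : z ∈ Algebra.adjoin ℚ (mu N))
    (h : z * starRingEnd ℂ z = D) : Even (padicValNat p D) := by
  have : Fact p.Prime := ⟨hp⟩
  obtain ⟨t, ht, hs⟩ := clear_den hz
  have h1 := even_val hp hj hN0 hN (t ^ 2 * D) (mul_ne_zero (pow_ne_zero 2 ht) hD) _ hs (by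
    rw [map_mul]
    simp only [Complex.conj_natCast]
    push_cast
    linear_combination (t : ℂ) ^ 2 * h)
  rw [padicValNat.mul (pow_ne_zero 2 ht) hD, padicValNat.pow] at h1
  have h2 : Even (2 * padicValNat p t) := even_two_mul _
  exact (Nat.even_add.1 h1).1 h2

end P355
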