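import Vale.Agent.P355.Field

/-!
# P355: the two conditions on the field, conclusion
-/

namespace Vale.Agent.P355

open Complex ComplexConjugate

variable (K : Subfield ℂ) (hK : ∀ z ∈ K, conj z ∈ K)
  (B : Fin 7 → OrthonormalBasis (Fin 6) ℂ (EuclideanSpace ℂ (Fin 6)))
  (hB : ∀ m m', m ≠ m' → ∀ a b, ‖inner ℂ (B m a) (B m' b)‖ ^ 2 = 1 / 6)
  (hKB : ∀ m a i j, (B m a) i * conj ((B m a) j) ∈ K)

include hB in
theorem core (F : Subfield ℝ) (r : ℝ) (hr0 : r ≠ 0) (R : F) (hR : (R : ℝ) = r ^ 2)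
    (u v : Idx → Fin 6 → Fin 6 → F) (hu : ∀ k i j, (u k i j : ℝ) = (Am B k i j).re)
    (hv : ∀ k i j, (v k i j : ℝ) = (Am B k i j).im / r) :
    ∃ D : F, (2 ^ 15 * 6 ^ 3 * R ^ 7) ^ 2 * R * D ^ 2 = 1 ∧ ((∃ q, bJ u v q = 0) → D = 0) := by
  classical
  have hcard : Fintype.card Jdx = Fintype.card Idx := by
    simp [Fintype.card_sum, Fintype.card_prod]
  let e : Jdx ≃ Idx := Fintype.equivOfCardEq hcard
  let M : Matrix Idx Idx F := LinearMap.toMatrix' (LinearMap.pi (fun k => bJ u v (e.symm k)))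
  have h2 : (2 : F) ≠ 0 := two_ne_zero
  have hM : ∀ y k, M.mulVec y k = bJ u v (e.symm k) y := by
    intro y k
    have := LinearMap.toMatrix'_mulVec (LinearMap.pi (fun k => bJ u v (e.symm k))) y
    exact congrFun this k
  have h1 := detSq h2 (fun k => dJ R (e.symm k)) M (by
    intro y
    rw [idF B hB F r hr0 R hR u v hu hv y]
    rw [← Equiv.sum_comp e.symm (fun q => dJ R q * (bJ u v q y) ^ 2)]
    exact Finset.sum_congr rfl fun k _ => by rw [hM])
  rw [Equiv.prod_comp e.symm (fun q => dJ R q), prod_dJ] at h1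
  refine ⟨M.det, h1, ?_⟩
  rintro ⟨q, hq⟩
  refine Matrix.det_eq_zero_of_row_eq_zero (e q) fun k => ?_
  have h3 := hM (Pi.single k 1) (e q)
  rw [Matrix.mulVec_single_one, Equiv.symm_apply_apply, hq] at h3
  simpa using h3

include hK hB hKB in
/-- The field contains `i`. -/
theorem I_mem : I ∈ K := by
  classical
  by_cases hreal : ∀ z ∈ K, z.im = 0
  · exfalso
    let u : Idx → Fin 6 → Fin 6 → realPart K :=
      fun k i j => ⟨(Am B k i j).re, re_mem K hK (Am_mem K B hKB k i j)⟩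
    let v : Idx → Fin 6 → Fin 6 → realPart K := fun k i j => 0
    obtain ⟨D, h1, h2⟩ := core B hB (realPart K) 1 one_ne_zero 1 (by simp) u v
      (fun k i j => rfl) (fun k i j => by
        rw [hreal _ (Am_mem K B hKB k i j)]; simp [v])
    have hD : D = 0 := by
      apply h2
      refine ⟨Sum.inl (1, 0), ?_⟩
      apply LinearMap.ext
      intro y
      have h3 : bJ u v (Sum.inl (1, 0)) = lf (fun k => v k 1 0) := by
        simp [bJ]
      rw [h3, lf_apply]
      simp [v]
    rw [hD] at h1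
    norm_num at h1
  · push Not at hreal
    obtain ⟨z, hz, hz0⟩ := hreal
    let r : ℝ := 2 * z.im
    have hr0 : r ≠ 0 := mul_ne_zero two_ne_zero hz0
    have hrI : (r : ℂ) * I ∈ K := by
      have h1 : (r : ℂ) * I = z - conj z := by
        rw [Complex.sub_conj]
      rw [h1]
      exact K.sub_mem hz (hK z hz)
    have hR : r ^ 2 ∈ realPart K := by
      rw [mem_realPart]
      have h1 : ((r ^ 2 : ℝ) : ℂ) = -(((r : ℂ) * I) * ((r : ℂ) * I)) := by
        push_cast
        linear_combination ((r : ℂ) ^ 2) * I_mul_I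
      rw [h1]
      exact K.neg_mem (K.mul_mem hrI hrI)
    let R : realPart K := ⟨r ^ 2, hR⟩
    let u : Idx → Fin 6 → Fin 6 → realPart K :=
      fun k i j => ⟨(Am B k i j).re, re_mem K hK (Am_mem K B hKB k i j)⟩
    let v : Idx → Fin 6 → Fin 6 → realPart K :=
      fun k i j => ⟨(Am B k i j).im / r, im_div_mem K hK (Am_mem K B hKB k i j) hrI hr0⟩
    obtain ⟨D, h1, -⟩ := core B hB (realPart K) r hr0 R rfl u v
      (fun k i j => rfl) (fun k i j => rfl)
    have hrm : r ∈ realPart K := by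
      have h2 : (((2 ^ 15 * 6 ^ 3 * R ^ 7) * D : realPart K) : ℝ) ^ 2 * r ^ 2 = 1 := by
        have h3 := congrArg (fun x : realPart K => (x : ℝ)) h1
        have h4 : (((2 ^ 15 * 6 ^ 3 * R ^ 7) ^ 2 * R * D ^ 2 : realPart K) : ℝ)
            = (((2 ^ 15 * 6 ^ 3 * R ^ 7) * D : realPart K) : ℝ) ^ 2 * r ^ 2 := by
          have h5 : (R : ℝ) = r ^ 2 := rfl
          push_cast
          rw [h5]
          ring
        rw [← h4]
        exact h3
      set ρ : realPart K := (2 ^ 15 * 6 ^ 3 * R ^ 7) * D with hρ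
      have h6 : ((ρ : ℝ) * r) ^ 2 = 1 := by rw [mul_pow]; exact h2
      have hρ0 : (ρ : ℝ) ≠ 0 := by
        intro h; rw [h] at h6; norm_num at h6
      have h8 : ((ρ : ℝ) * r) * ((ρ : ℝ) * r) = 1 := by rw [← pow_two]; exact h6
      rcases mul_self_eq_one_iff.1 h8 with h | h
      · have : r = ((ρ⁻¹ : realPart K) : ℝ) := by
          push_cast
          field_simp
          linarith
        rw [this]; exact (ρ⁻¹).2
      · have : r = ((-ρ⁻¹ : realPart K) : ℝ) := by
          push_cast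
          field_simp
          linarith
        rw [this]; exact (-ρ⁻¹).2
    have h7 : I = ((r : ℂ) * I) / (r : ℂ) := by
      have : (r : ℂ) ≠ 0 := by exact_mod_cast hr0
      field_simp
    rw [h7]
    exact K.div_mem hrI ((mem_realPart K r).1 hrm)


/-- the four squares equal to `6 (z₀² + z₁² + z₂² + z₃²)` -/
noncomputable def qf {F : Type*} [Field F] (z : Fin 4 → (Idx → F) →ₗ[F] F) :
    Fin 4 → (Idx → F) →ₗ[F] F :=
  ![(2 : F) • z 0 + z 1 + z 2, (2 : F) • z 1 - z 0 + z 3, (2 : F) • z 2 - z 3 - z 0,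
    (2 : F) • z 3 + z 2 - z 1]

theorem qf_sum {F : Type*} [Field F] (z : Fin 4 → (Idx → F) →ₗ[F] F) (y : Idx → F) :
    ∑ t, (qf z t y) ^ 2 = 6 * ∑ t, (z t y) ^ 2 := by
  unfold qf
  simp only [Fin.sum_univ_four]
  simp
  ring

/-- the forty linear forms -/
noncomputable def bI {F : Type*} [Field F] (u v : Idx → Fin 6 → Fin 6 → F) :
    (Fin 6 × Fin 6) ⊕ Fin 4 → (Idx → F) →ₗ[F] F
  | Sum.inl p => if p.1 = p.2 then lf (fun k => u k p.1 p.2)
      else if p.1 < p.2 then lf (fun k => u k p.1 p.2) + lf (fun k => v k p.2 p.1)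
      else lf (fun k => u k p.2 p.1) - lf (fun k => v k p.1 p.2)
  | Sum.inr t => qf (fun s => zf F (Fin.castLE (by norm_num) s)) t

theorem symSum' {F : Type*} [Field F] [CharZero F] (U V : Fin 6 → Fin 6 → F) :
    ∑ i, ∑ j, (if i = j then U i j ^ 2 else if i < j then (U i j + V j i) ^ 2
        else (U j i - V i j) ^ 2)
      = ∑ i, ∑ j, (if i = j then U i j ^ 2 else if i < j then 2 * U i j ^ 2
        else 2 * V i j ^ 2) := by
  have h2 : ∀ f : Fin 6 → Fin 6 → F, ∑ i, ∑ j, (f i j + f j i) = 2 * ∑ i, ∑ j, f i j := by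
    intro f
    have h3 : ∑ i, ∑ j, f j i = ∑ i, ∑ j, f i j := Finset.sum_comm
    rw [two_mul]
    nth_rewrite 2 [← h3]
    rw [← Finset.sum_add_distrib]
    exact Finset.sum_congr rfl fun i _ => Finset.sum_add_distrib
  have h1 : ∑ i, ∑ j, ((if i = j then U i j ^ 2 else if i < j then (U i j + V j i) ^ 2
        else (U j i - V i j) ^ 2) + (if j = i then U j i ^ 2 else if j < i then
          (U j i + V i j) ^ 2 else (U i j - V j i) ^ 2))
      = ∑ i, ∑ j, ((if i = j then U i j ^ 2 else if i < j then 2 * U i j ^ 2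
        else 2 * V i j ^ 2) + (if j = i then U j i ^ 2 else if j < i then 2 * U j i ^ 2
        else 2 * V j i ^ 2)) := by
    refine Finset.sum_congr rfl fun i _ => Finset.sum_congr rfl fun j _ => ?_
    rcases lt_trichotomy i j with h | h | h
    · rw [if_neg h.ne, if_pos h, if_neg h.ne', if_neg (not_lt.2 h.le), if_neg h.ne, if_pos h,
        if_neg h.ne', if_neg (not_lt.2 h.le)]; ring
    · subst h
      simp
    · rw [if_neg h.ne', if_neg (not_lt.2 h.le), if_neg h.ne, if_pos h, if_neg h.ne',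
        if_neg (not_lt.2 h.le), if_neg h.ne, if_pos h]; ring
  rw [h2 (fun i j => if i = j then U i j ^ 2 else if i < j then (U i j + V j i) ^ 2
        else (U j i - V i j) ^ 2), h2 (fun i j => if i = j then U i j ^ 2 else if i < j then
        2 * U i j ^ 2 else 2 * V i j ^ 2)] at h1
  exact mul_left_cancel₀ two_ne_zero h1

include hK hB hKB in
/-- `3` is a sum of two squares in the real part of the field. -/
theorem three_sum : ∃ x y : ℝ, (x : ℂ) ∈ K ∧ (y : ℂ) ∈ K ∧ x ^ 2 + y ^ 2 = 3 := by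
  classical
  have hI := I_mem K hK B hB hKB
  have hrI : ((1 : ℝ) : ℂ) * I ∈ K := by simpa using hI
  let u : Idx → Fin 6 → Fin 6 → realPart K :=
    fun k i j => ⟨(Am B k i j).re, re_mem K hK (Am_mem K B hKB k i j)⟩
  let v : Idx → Fin 6 → Fin 6 → realPart K :=
    fun k i j => ⟨(Am B k i j).im / 1, im_div_mem K hK (Am_mem K B hKB k i j) hrI one_ne_zero⟩
  have hid := idF B hB (realPart K) 1 one_ne_zero 1 (by simp) u v (fun k i j => rfl)
    (fun k i j => rfl)
  -- the forty squares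
  have hid2 : ∀ y : Idx → realPart K, ∑ k, y k ^ 2
      = ∑ q, (bI u v q y) ^ 2 + 6 * ((zf (realPart K) 4 y) ^ 2 + (zf (realPart K) 5 y) ^ 2) := by
    intro y
    rw [hid y, Fintype.sum_sum_type, Fintype.sum_sum_type, Fintype.sum_prod_type,
      Fintype.sum_prod_type]
    have e1 : ∑ i, ∑ j, dJ (1 : realPart K) (Sum.inl (i, j)) * (bJ u v (Sum.inl (i, j)) y) ^ 2
        = ∑ i, ∑ j, (bI u v (Sum.inl (i, j)) y) ^ 2 := by
      have h3 := symSum' (fun i j => lf (fun k => u k i j) y) (fun i j => lf (fun k => v k i j) y)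
      have h4 : ∀ i j, (bI u v (Sum.inl (i, j)) y) ^ 2
          = (if i = j then (lf (fun k => u k i j) y) ^ 2 else if i < j then
            (lf (fun k => u k i j) y + lf (fun k => v k j i) y) ^ 2
            else (lf (fun k => u k j i) y - lf (fun k => v k i j) y) ^ 2) := by
        intro i j
        unfold bI
        simp only
        split_ifs <;> rfl
      have h5 : ∀ i j, dJ (1 : realPart K) (Sum.inl (i, j)) * (bJ u v (Sum.inl (i, j)) y) ^ 2
          = (if i = j then (lf (fun k => u k i j) y) ^ 2 else if i < j then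
            2 * (lf (fun k => u k i j) y) ^ 2
            else 2 * (lf (fun k => v k i j) y) ^ 2) := by
        intro i j
        unfold dJ bJ
        simp only
        split_ifs <;> ring
      simp only [h4, h5]
      exact h3.symm
    have e2 : ∑ t, dJ (1 : realPart K) (Sum.inr t) * (bJ u v (Sum.inr t) y) ^ 2
        = ∑ t, (bI u v (Sum.inr t) y) ^ 2
          + 6 * ((zf (realPart K) 4 y) ^ 2 + (zf (realPart K) 5 y) ^ 2) := by
      have h3 : ∑ t, (bI u v (Sum.inr t) y) ^ 2
          = 6 * ∑ t : Fin 4, (zf (realPart K) (Fin.castLE (by norm_num) t) y) ^ 2 :=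
        qf_sum (fun s : Fin 4 => zf (realPart K) (Fin.castLE (by norm_num) s)) y
      rw [h3]
      unfold dJ bJ
      simp only [Fin.sum_univ_six, Fin.sum_univ_four]
      have c0 : (Fin.castLE (by norm_num) (0 : Fin 4) : Fin 6) = 0 := rfl
      have c1 : (Fin.castLE (by norm_num) (1 : Fin 4) : Fin 6) = 1 := rfl
      have c2 : (Fin.castLE (by norm_num) (2 : Fin 4) : Fin 6) = 2 := rfl
      have c3 : (Fin.castLE (by norm_num) (3 : Fin 4) : Fin 6) = 3 := rfl
      rw [c0, c1, c2, c3]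
      ring
    rw [e1, e2]
    ring
  -- the forty coordinates
  let e : (Fin 6 × Fin 6) ⊕ Fin 4 → Idx := fun q => match q with
    | Sum.inl p => (p.1.castSucc, p.2)
    | Sum.inr t => (Fin.last 6, Fin.castLE (by norm_num) t)
  have he : Function.Injective e := by decide
  obtain ⟨S, hS1, hS2⟩ := signTrick (two_ne_zero : (2 : realPart K) ≠ 0) e he (bI u v) Finset.univ
  obtain ⟨y, hyS, hy⟩ := hS2 (fun k => if k = (6, 4) then 1 else 0)
  have hy4 : y (6, 4) = 1 := by
    rw [hy _ (by decide)]; simp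
  have hy5 : y (6, 5) = 0 := by
    rw [hy _ (by decide)]; simp
  have h1 := hid2 y
  have h3 : ∑ q, (bI u v q y) ^ 2 = ∑ q, (y (e q)) ^ 2 :=
    Finset.sum_congr rfl fun q hq => hS1 y hyS q hq
  have h4 : ∑ k, y k ^ 2 = ∑ q, (y (e q)) ^ 2 + (y (6, 4) ^ 2 + y (6, 5) ^ 2) := by
    rw [Fintype.sum_sum_type, Fintype.sum_prod_type, Fintype.sum_prod_type, Fin.sum_univ_castSucc]
    rw [add_assoc]
    congr 1
    simp only [Fin.sum_univ_six, Fin.sum_univ_four]
    have c0 : e (Sum.inr 0) = (Fin.last 6, 0) := rfl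
    have c1 : e (Sum.inr 1) = (Fin.last 6, 1) := rfl
    have c2 : e (Sum.inr 2) = (Fin.last 6, 2) := rfl
    have c3 : e (Sum.inr 3) = (Fin.last 6, 3) := rfl
    have c6 : (6 : Fin 7) = Fin.last 6 := rfl
    rw [c0, c1, c2, c3, c6]
    ring
  rw [h3, h4, hy4, hy5] at h1
  have h5 : 6 * ((zf (realPart K) 4 y) ^ 2 + (zf (realPart K) 5 y) ^ 2) = (1 : realPart K) := by
    linear_combination -h1
  refine ⟨((3 * (zf (realPart K) 4 y + zf (realPart K) 5 y) : realPart K) : ℝ),
    ((3 * (zf (realPart K) 4 y - zf (realPart K) 5 y) : realPart K) : ℝ),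
    (3 * (zf (realPart K) 4 y + zf (realPart K) 5 y) : realPart K).2,
    (3 * (zf (realPart K) 4 y - zf (realPart K) 5 y) : realPart K).2, ?_⟩
  have h6 : (3 * (zf (realPart K) 4 y + zf (realPart K) 5 y)) ^ 2
      + (3 * (zf (realPart K) 4 y - zf (realPart K) 5 y)) ^ 2 = (3 : realPart K) := by
    linear_combination 3 * h5
  have h7 := congrArg (fun x : realPart K => (x : ℝ)) h6
  exact h7

end Vale.Agent.P355
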