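import Mathlib

/-!
# P355: mutually unbiased bases of `ℂ ^ 6` and their triple products
-/

namespace Vale.Agent.P355

open ComplexConjugate

/-- the scalar product of `ℂ ^ 6` -/
noncomputable def sp (x y : EuclideanSpace ℂ (Fin 6)) : ℂ := ∑ i, conj (x i) * y i

/-- The orthonormal bases `B 0, B 1, ...` of `ℂ ^ 6` are pairwise mutually unbiased. -/
def MutuallyUnbiased {n : ℕ}
    (B : Fin n → OrthonormalBasis (Fin 6) ℂ (EuclideanSpace ℂ (Fin 6))) : Prop :=
  ∀ m m', m ≠ m' → ∀ a b, ‖sp (B m a) (B m' b)‖ ^ 2 = 1 / 6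

/-- All triple products `⟨x, y⟩ ⟨y, z⟩ ⟨z, x⟩` of vectors `x, y, z` of the bases lie in `K`. (They do
not depend on the phases of the vectors nor on the coordinate system.) -/
def TripleProductsIn {n : ℕ} (K : Subfield ℂ)
    (B : Fin n → OrthonormalBasis (Fin 6) ℂ (EuclideanSpace ℂ (Fin 6))) : Prop :=
  ∀ m a m' a' m'' a'',
    sp (B m a) (B m' a') * sp (B m' a') (B m'' a'') * sp (B m'' a'') (B m a) ∈ K

end Vale.Agent.P355
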