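import Vale.Agent.P355.Main

/-!
# P355: the two conditions on the field
-/

namespace Vale.Agent.P355

open Complex ComplexConjugate

/-- the real part of a subfield of `ℂ` -/
noncomputable def realPart (K : Subfield ℂ) : Subfield ℝ := K.comap Complex.ofRealHom

theorem mem_realPart (K : Subfield ℂ) (x : ℝ) : x ∈ realPart K ↔ (x : ℂ) ∈ K := Iff.rfl

variable (K : Subfield ℂ) (hK : ∀ z ∈ K, conj z ∈ K)

include hK in
theorem re_mem {z : ℂ} (hz : z ∈ K) : z.re ∈ realPart K := by
  rw [mem_realPart]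
  have h1 : (z.re : ℂ) = (z + conj z) / 2 := by
    rw [Complex.add_conj]; push_cast; ring
  rw [h1]
  exact K.div_mem (K.add_mem hz (hK z hz)) (ofNat_mem K 2)

include hK in
theorem im_div_mem {z : ℂ} (hz : z ∈ K) {r : ℝ} (hr : (r : ℂ) * I ∈ K) (hr0 : r ≠ 0) :
    z.im / r ∈ realPart K := by
  rw [mem_realPart]
  have h1 : ((z.im / r : ℝ) : ℂ) = (z - conj z) / (2 * ((r : ℂ) * I)) := by
    rw [Complex.sub_conj]
    have hr1 : (r : ℂ) ≠ 0 := by exact_mod_cast hr0
    have hI : I ≠ 0 := I_ne_zero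
    push_cast
    field_simp
  rw [h1]
  exact K.div_mem (K.sub_mem hz (hK z hz)) (K.mul_mem (ofNat_mem K 2) hr)

variable (B : Fin 7 → OrthonormalBasis (Fin 6) ℂ (EuclideanSpace ℂ (Fin 6)))
  (hB : ∀ m m', m ≠ m' → ∀ a b, ‖inner ℂ (B m a) (B m' b)‖ ^ 2 = 1 / 6)
  (hKB : ∀ m a i j, (B m a) i * conj ((B m a) j) ∈ K)

include hKB in
theorem Am_mem (k : Idx) (i j : Fin 6) : Am B k i j ∈ K := by
  unfold Am Pr
  refine K.sub_mem (hKB k.1 k.2 i j) ?_
  by_cases h : k.1 ≠ 0 ∧ i = j
  · rw [if_pos h]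
    exact K.div_mem K.one_mem (ofNat_mem K 6)
  · rw [if_neg h]; exact K.zero_mem

/-- index set of the diagonal form -/
abbrev Jdx : Type := (Fin 6 × Fin 6) ⊕ Fin 6

/-- the diagonal form -/
noncomputable def dJ {F : Type*} [Field F] (R : F) : Jdx → F
  | Sum.inl p => if p.1 = p.2 then 1 else if p.1 < p.2 then 2 else 2 * R
  | Sum.inr _ => 6

/-- the linear forms -/
noncomputable def bJ {F : Type*} [Field F] (u v : Idx → Fin 6 → Fin 6 → F) :
    Jdx → (Idx → F) →ₗ[F] F
  | Sum.inl p => if p.1 = p.2 then lf (fun k => u k p.1 p.2)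
      else if p.1 < p.2 then lf (fun k => u k p.1 p.2) else lf (fun k => v k p.1 p.2)
  | Sum.inr t => zf F t

theorem prod_dJ {F : Type*} [Field F] (R : F) :
    ∏ q, dJ R q = (2 ^ 15 * 6 ^ 3 * R ^ 7) ^ 2 * R := by
  rw [Fintype.prod_sum_type, Fintype.prod_prod_type]
  unfold dJ
  simp only [Fin.prod_univ_six, Finset.prod_const, Finset.card_univ, Fintype.card_fin]
  simp
  ring

include hB in
/-- the identity over the real subfield -/
theorem idF (F : Subfield ℝ) (r : ℝ) (hr0 : r ≠ 0) (R : F) (hR : (R : ℝ) = r ^ 2)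
    (u v : Idx → Fin 6 → Fin 6 → F) (hu : ∀ k i j, (u k i j : ℝ) = (Am B k i j).re)
    (hv : ∀ k i j, (v k i j : ℝ) = (Am B k i j).im / r) (y : Idx → F) :
    ∑ k, y k ^ 2 = ∑ q, dJ R q * (bJ u v q y) ^ 2 := by
  have h1 := coordId B hB (fun k => (y k : ℝ))
  apply Subtype.ext
  have h2 : ((∑ k, y k ^ 2 : F) : ℝ) = ∑ k, (y k : ℝ) ^ 2 := by
    push_cast; rfl
  have c2 : ((2 : F) : ℝ) = 2 := rfl
  rw [h2, h1, Fintype.sum_sum_type, Fintype.sum_prod_type]
  push_cast
  congr 1
  · refine Finset.sum_congr rfl fun i _ => Finset.sum_congr rfl fun j _ => ?_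
    by_cases hij : i = j
    · simp only [dJ, bJ, hij, if_true]
      rw [lf_apply]
      push_cast
      simp only [hu]
      ring
    · by_cases hlt : i < j
      · simp only [dJ, bJ, hij, hlt, if_true, if_false]
        rw [lf_apply]
        push_cast
        simp only [hu, c2]
      · simp only [dJ, bJ, hij, hlt, if_false]
        rw [lf_apply]
        push_cast
        simp only [hv, hR, c2]
        have h3 : ∑ k, (Am B k i j).im / r * (y k : ℝ) = (∑ k, (Am B k i j).im * (y k : ℝ)) / r := by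
          rw [Finset.sum_div]
          exact Finset.sum_congr rfl fun k _ => by ring
        rw [h3]
        field_simp
        try ring
  · refine Finset.sum_congr rfl fun t _ => ?_
    simp only [dJ, bJ, zf_apply]
    push_cast
    rfl

end Vale.Agent.P355
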