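import Vale.Agent.P355.Cond
import Vale.Agent.P355.Defs

/-!
# P355: mutually unbiased bases of `ℂ ^ 6` over a subfield `K` of `ℂ`
-/

namespace Vale.Agent.P355

open Complex ComplexConjugate

/-- mutually unbiased, with `inner` -/
def MU {n : ℕ} (B : Fin n → OrthonormalBasis (Fin 6) ℂ (EuclideanSpace ℂ (Fin 6))) : Prop :=
  ∀ m m', m ≠ m' → ∀ a b, ‖inner ℂ (B m a) (B m' b)‖ ^ 2 = 1 / 6

/-- triple products in `K`, with `inner` -/
def TP {n : ℕ} (K : Subfield ℂ)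
    (B : Fin n → OrthonormalBasis (Fin 6) ℂ (EuclideanSpace ℂ (Fin 6))) : Prop :=
  ∀ m a m' a' m'' a'', inner ℂ (B m a) (B m' a') * inner ℂ (B m' a') (B m'' a'')
    * inner ℂ (B m'' a'') (B m a) ∈ K

/-- All entries `b i * conj (b j)` of the projectors onto the lines of the basis vectors `b` lie in
`K`. -/
def DefinedOver {n : ℕ} (K : Subfield ℂ)
    (B : Fin n → OrthonormalBasis (Fin 6) ℂ (EuclideanSpace ℂ (Fin 6))) : Prop :=
  ∀ m a i j, (B m a) i * conj ((B m a) j) ∈ K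

/-- the largest subfield of `K` closed under conjugation -/
noncomputable def symK (K : Subfield ℂ) : Subfield ℂ := K ⊓ K.comap (starRingEnd ℂ)

theorem symK_conj (K : Subfield ℂ) : ∀ z ∈ symK K, conj z ∈ symK K := by
  intro z hz
  obtain ⟨h1, h2⟩ := Subfield.mem_inf.1 hz
  refine Subfield.mem_inf.2 ⟨h2, ?_⟩
  rw [Subfield.mem_comap, Complex.conj_conj]
  exact h1

theorem symK_le (K : Subfield ℂ) : symK K ≤ K := inf_le_left

theorem definedOver_symK {n : ℕ} (K : Subfield ℂ)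
    (B : Fin n → OrthonormalBasis (Fin 6) ℂ (EuclideanSpace ℂ (Fin 6))) (h : DefinedOver K B) :
    DefinedOver (symK K) B := by
  intro m a i j
  refine Subfield.mem_inf.2 ⟨h m a i j, ?_⟩
  rw [Subfield.mem_comap, map_mul, Complex.conj_conj, mul_comm]
  exact h m a j i

theorem seven (K : Subfield ℂ)
    (B : Fin 7 → OrthonormalBasis (Fin 6) ℂ (EuclideanSpace ℂ (Fin 6)))
    (hB : MU B) (hK : DefinedOver K B) :
    I ∈ K ∧ ∃ x y : ℝ, (x : ℂ) ∈ K ∧ (y : ℂ) ∈ K ∧ x ^ 2 + y ^ 2 = 3 := by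
  refine ⟨symK_le K (I_mem (symK K) (symK_conj K) B hB (definedOver_symK K B hK)), ?_⟩
  obtain ⟨x, y, hx, hy, h⟩ :=
    three_sum (symK K) (symK_conj K) B hB (definedOver_symK K B hK)
  exact ⟨x, y, symK_le K hx, symK_le K hy, h⟩

abbrev E6 : Type := EuclideanSpace ℂ (Fin 6)

/-- triple product -/
noncomputable def tr3 (x y z : E6) : ℂ := inner ℂ x y * inner ℂ y z * inner ℂ z x

theorem conj_tr3 (x y z : E6) : conj (tr3 x y z) = tr3 x z y := by
  unfold tr3
  rw [map_mul, map_mul, inner_conj_symm, inner_conj_symm, inner_conj_symm]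
  ring

theorem inner_inner {n : ℕ} (B : Fin n → OrthonormalBasis (Fin 6) ℂ E6)
    (hB : MU B) {m m' : Fin n} (h : m ≠ m') (a b : Fin 6) :
    inner ℂ (B m a) (B m' b) * inner ℂ (B m' b) (B m a) = 1 / 6 := by
  have h1 : inner ℂ (B m' b) (B m a) = conj (inner ℂ (B m a) (B m' b)) :=
    (inner_conj_symm _ _).symm
  rw [h1, Complex.mul_conj']
  have h2 := hB m m' h a b
  have h3 : ((‖inner ℂ (B m a) (B m' b)‖ ^ 2 : ℝ) : ℂ) = ((1 / 6 : ℝ) : ℂ) := by rw [h2]
  push_cast at h3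
  exact h3

/-- Three mutually unbiased bases with triple products in `K`: `6` is the square of the absolute
value of an element of `K`. -/
theorem three {n : ℕ} (hn : 3 ≤ n) (K : Subfield ℂ)
    (B : Fin n → OrthonormalBasis (Fin 6) ℂ (EuclideanSpace ℂ (Fin 6)))
    (hB : MU B) (hK : TP K B) :
    ∃ z ∈ K, conj z ∈ K ∧ z * conj z = 6 := by
  let m0 : Fin n := ⟨0, by omega⟩
  let m1 : Fin n := ⟨1, by omega⟩
  let m2 : Fin n := ⟨2, by omega⟩
  have h01 : m0 ≠ m1 := by intro h; have := congrArg Fin.val h; simp [m0, m1] at this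
  have h12 : m1 ≠ m2 := by intro h; have := congrArg Fin.val h; simp [m1, m2] at this
  have h20 : m2 ≠ m0 := by intro h; have := congrArg Fin.val h; simp [m0, m2] at this
  have ht : tr3 (B m0 0) (B m1 0) (B m2 0) ∈ K := hK m0 0 m1 0 m2 0
  have ht' : tr3 (B m0 0) (B m2 0) (B m1 0) ∈ K := hK m0 0 m2 0 m1 0
  refine ⟨36 * tr3 (B m0 0) (B m1 0) (B m2 0), K.mul_mem (ofNat_mem _ 36) ht, ?_, ?_⟩
  · rw [map_mul, conj_tr3, map_ofNat (starRingEnd ℂ) 36]
    exact K.mul_mem (ofNat_mem _ 36) ht'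
  · rw [map_mul, conj_tr3, map_ofNat (starRingEnd ℂ) 36]
    have e1 := inner_inner B hB h01 0 0
    have e2 := inner_inner B hB h12 0 0
    have e3 := inner_inner B hB h20 0 0
    unfold tr3
    calc 36 * (inner ℂ (B m0 0) (B m1 0) * inner ℂ (B m1 0) (B m2 0) * inner ℂ (B m2 0) (B m0 0))
          * (36 * (inner ℂ (B m0 0) (B m2 0) * inner ℂ (B m2 0) (B m1 0)
            * inner ℂ (B m1 0) (B m0 0)))
        = 1296 * (inner ℂ (B m0 0) (B m1 0) * inner ℂ (B m1 0) (B m0 0))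
          * (inner ℂ (B m1 0) (B m2 0) * inner ℂ (B m2 0) (B m1 0))
          * (inner ℂ (B m2 0) (B m0 0) * inner ℂ (B m0 0) (B m2 0)) := by ring
      _ = 6 := by rw [e1, e2, e3]; norm_num

/-- the products of four scalar products -/
theorem four_mem (K : Subfield ℂ) (B : Fin 7 → OrthonormalBasis (Fin 6) ℂ E6)
    (hB : MU B) (hK : TP K B) (m : Fin 7) (a i j : Fin 6) :
    inner ℂ (B 1 0) (B 0 i) * inner ℂ (B 0 i) (B m a) * inner ℂ (B m a) (B 0 j)
      * inner ℂ (B 0 j) (B 1 0) ∈ K := by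
  by_cases hm : m = 2
  · subst hm
    have e1 := inner_inner B hB (show (2 : Fin 7) ≠ 1 by decide) a 0
    have h1 : inner ℂ (B 1 0) (B 0 i) * inner ℂ (B 0 i) (B 2 a) * inner ℂ (B 2 a) (B 0 j)
        * inner ℂ (B 0 j) (B 1 0)
        = 6 * ((inner ℂ (B 1 0) (B 0 i) * inner ℂ (B 0 i) (B 2 a) * inner ℂ (B 2 a) (B 1 0))
          * (inner ℂ (B 1 0) (B 2 a) * inner ℂ (B 2 a) (B 0 j) * inner ℂ (B 0 j) (B 1 0))) := by
      linear_combination (-6 * (inner ℂ (B 1 0) (B 0 i) * inner ℂ (B 0 i) (B 2 a)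
        * inner ℂ (B 2 a) (B 0 j) * inner ℂ (B 0 j) (B 1 0))) * e1
    rw [h1]
    exact K.mul_mem (ofNat_mem _ 6) (K.mul_mem (hK 1 0 0 i 2 a) (hK 1 0 2 a 0 j))
  · have e1 := inner_inner B hB (show (0 : Fin 7) ≠ 2 by decide) i 0
    have e2 := inner_inner B hB (show (2 : Fin 7) ≠ 1 by decide) 0 0
    have e3 := inner_inner B hB hm a 0
    have e4 := inner_inner B hB (show (0 : Fin 7) ≠ 2 by decide) j 0
    have h1 : inner ℂ (B 1 0) (B 0 i) * inner ℂ (B 0 i) (B m a) * inner ℂ (B m a) (B 0 j)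
        * inner ℂ (B 0 j) (B 1 0)
        = 1296 * ((inner ℂ (B 1 0) (B 0 i) * inner ℂ (B 0 i) (B 2 0) * inner ℂ (B 2 0) (B 1 0))
          * (inner ℂ (B 2 0) (B 0 i) * inner ℂ (B 0 i) (B m a) * inner ℂ (B m a) (B 2 0))
          * (inner ℂ (B 2 0) (B m a) * inner ℂ (B m a) (B 0 j) * inner ℂ (B 0 j) (B 2 0))
          * (inner ℂ (B 2 0) (B 0 j) * inner ℂ (B 0 j) (B 1 0) * inner ℂ (B 1 0) (B 2 0))) := by
      have h2 : ((inner ℂ (B 1 0) (B 0 i) * inner ℂ (B 0 i) (B 2 0) * inner ℂ (B 2 0) (B 1 0))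
          * (inner ℂ (B 2 0) (B 0 i) * inner ℂ (B 0 i) (B m a) * inner ℂ (B m a) (B 2 0))
          * (inner ℂ (B 2 0) (B m a) * inner ℂ (B m a) (B 0 j) * inner ℂ (B 0 j) (B 2 0))
          * (inner ℂ (B 2 0) (B 0 j) * inner ℂ (B 0 j) (B 1 0) * inner ℂ (B 1 0) (B 2 0)))
          = (inner ℂ (B 1 0) (B 0 i) * inner ℂ (B 0 i) (B m a) * inner ℂ (B m a) (B 0 j)
            * inner ℂ (B 0 j) (B 1 0))
            * ((inner ℂ (B 0 i) (B 2 0) * inner ℂ (B 2 0) (B 0 i))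
            * (inner ℂ (B 2 0) (B 1 0) * inner ℂ (B 1 0) (B 2 0))
            * (inner ℂ (B m a) (B 2 0) * inner ℂ (B 2 0) (B m a))
            * (inner ℂ (B 0 j) (B 2 0) * inner ℂ (B 2 0) (B 0 j))) := by ring
      rw [h2, e1, e2, e3, e4]
      ring
    rw [h1]
    refine K.mul_mem (ofNat_mem _ 1296) (K.mul_mem (K.mul_mem (K.mul_mem ?_ ?_) ?_) ?_)
    · exact hK 1 0 0 i 2 0
    · exact hK 2 0 0 i m a
    · exact hK 2 0 m a 0 j
    · exact hK 2 0 0 j 1 0

/-- Coordinates in which seven mutually unbiased bases with triple products in `K` are defined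
over `K`. -/
theorem exists_coords (K : Subfield ℂ) (B : Fin 7 → OrthonormalBasis (Fin 6) ℂ E6)
    (hB : MU B) (hK : TP K B) :
    ∃ B' : Fin 7 → OrthonormalBasis (Fin 6) ℂ E6, MU B' ∧ DefinedOver K B' := by
  let s : ℂ := ((Real.sqrt 6 : ℝ) : ℂ)
  have hs : s * s = 6 := by
    show ((Real.sqrt 6 : ℝ) : ℂ) * ((Real.sqrt 6 : ℝ) : ℂ) = 6
    rw [← Complex.ofReal_mul, Real.mul_self_sqrt (by norm_num)]
    norm_num
  have hsc : conj s = s := Complex.conj_ofReal _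
  let f : Fin 6 → E6 := fun i => (s * inner ℂ (B 0 i) (B 1 0)) • B 0 i
  have hfin : ∀ (i : Fin 6) (x : E6), inner ℂ (f i) x
      = s * inner ℂ (B 1 0) (B 0 i) * inner ℂ (B 0 i) x := by
    intro i x
    show inner ℂ ((s * inner ℂ (B 0 i) (B 1 0)) • B 0 i) x = _
    rw [inner_smul_left, map_mul, hsc, inner_conj_symm]
  have hfin2 : ∀ (j : Fin 6) (x : E6), inner ℂ x (f j)
      = s * inner ℂ (B 0 j) (B 1 0) * inner ℂ x (B 0 j) := by
    intro j x
    show inner ℂ x ((s * inner ℂ (B 0 j) (B 1 0)) • B 0 j) = _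
    rw [inner_smul_right]
  have hf : Orthonormal ℂ f := by
    rw [orthonormal_iff_ite]
    intro i j
    rw [hfin, hfin2, orthonormal_iff_ite.1 (B 0).orthonormal i j]
    by_cases hij : i = j
    · subst hij
      rw [if_pos rfl]
      have e1 := inner_inner B hB (show (1 : Fin 7) ≠ 0 by decide) 0 i
      calc s * inner ℂ (B 1 0) (B 0 i) * (s * inner ℂ (B 0 i) (B 1 0) * 1)
          = (s * s) * (inner ℂ (B 1 0) (B 0 i) * inner ℂ (B 0 i) (B 1 0)) := by ring
        _ = 1 := by rw [hs, e1]; norm_num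
    · rw [if_neg hij]; ring
  have hcard : Fintype.card (Fin 6) = Module.finrank ℂ E6 := by simp
  let b0 := basisOfOrthonormalOfCardEqFinrank hf hcard
  have hb0 : ⇑b0 = f := coe_basisOfOrthonormalOfCardEqFinrank hf hcard
  let fb : OrthonormalBasis (Fin 6) ℂ E6 := b0.toOrthonormalBasis (by rw [hb0]; exact hf)
  have hfb : ∀ i, fb i = f i := by
    intro i
    have h1 : fb i = b0 i := by simp [fb]
    rw [h1, hb0]
  refine ⟨fun m => (B m).map fb.repr, ?_, ?_⟩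
  · intro m m' hm a b
    rw [OrthonormalBasis.map_apply, OrthonormalBasis.map_apply, LinearIsometryEquiv.inner_map_map]
    exact hB m m' hm a b
  · intro m a i j
    rw [OrthonormalBasis.map_apply]
    have h1 : ∀ i, (fb.repr (B m a)) i = inner ℂ (f i) (B m a) := by
      intro i
      rw [OrthonormalBasis.repr_apply_apply, hfb]
    rw [h1, h1, inner_conj_symm, hfin, hfin2]
    have h2 : s * inner ℂ (B 1 0) (B 0 i) * inner ℂ (B 0 i) (B m a)
        * (s * inner ℂ (B 0 j) (B 1 0) * inner ℂ (B m a) (B 0 j))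
        = 6 * (inner ℂ (B 1 0) (B 0 i) * inner ℂ (B 0 i) (B m a) * inner ℂ (B m a) (B 0 j)
          * inner ℂ (B 0 j) (B 1 0)) := by
      rw [← hs]; ring
    rw [h2]
    exact K.mul_mem (ofNat_mem _ 6) (four_mem K B hB hK m a i j)

theorem sp_eq (x y : E6) : sp x y = inner ℂ x y := by
  rw [PiLp.inner_apply]
  unfold sp
  refine Finset.sum_congr rfl fun i _ => ?_
  rw [mul_comm]
  rfl

theorem main (K : Subfield ℂ) {n : ℕ}
    (B : Fin n → OrthonormalBasis (Fin 6) ℂ (EuclideanSpace ℂ (Fin 6)))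
    (hB : MutuallyUnbiased B) (hK : TripleProductsIn K B) :
    (3 ≤ n → ∃ z ∈ K, conj z ∈ K ∧ z * conj z = 6) ∧
    (7 ≤ n → I ∈ K ∧ ∃ x y : ℝ, (x : ℂ) ∈ K ∧ (y : ℂ) ∈ K ∧ x ^ 2 + y ^ 2 = 3) := by
  have hB' : MU B := by
    intro m m' hm a b
    rw [← sp_eq]
    exact hB m m' hm a b
  have hK' : TP K B := by
    intro m a m' a' m'' a''
    have h := hK m a m' a' m'' a''
    rw [sp_eq, sp_eq, sp_eq] at h
    exact h
  refine ⟨fun hn => three hn K B hB' hK', fun hn => ?_⟩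
  let C : Fin 7 → OrthonormalBasis (Fin 6) ℂ E6 := fun m => B (Fin.castLE hn m)
  have hC : MU C := fun m m' hm a b =>
    hB' _ _ (fun h => hm (Fin.castLE_injective hn h)) a b
  have hCK : TP K C := fun m a m' a' m'' a'' => hK' _ a _ a' _ a''
  obtain ⟨B', h1, h2⟩ := exists_coords K C hC hCK
  exact seven K B' h1 h2

end Vale.Agent.P355
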