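import Mathlib

/-!
# P355: the trace form of seven mutually unbiased bases of `ℂ ^ 6`
-/

namespace Vale.Agent.P355

open Complex ComplexConjugate

/-- entries of the projectors -/
noncomputable def Pr (B : Fin 7 → OrthonormalBasis (Fin 6) ℂ (EuclideanSpace ℂ (Fin 6)))
    (k : Fin 7 × Fin 6) (i j : Fin 6) : ℂ := (B k.1 k.2) i * conj ((B k.1 k.2) j)

/-- the matrices of the isometry -/
noncomputable def Am (B : Fin 7 → OrthonormalBasis (Fin 6) ℂ (EuclideanSpace ℂ (Fin 6)))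
    (k : Fin 7 × Fin 6) (i j : Fin 6) : ℂ :=
  Pr B k i j - if k.1 ≠ 0 ∧ i = j then 1 / 6 else 0

variable (B : Fin 7 → OrthonormalBasis (Fin 6) ℂ (EuclideanSpace ℂ (Fin 6)))

theorem Am_conj (k : Fin 7 × Fin 6) (i j : Fin 6) : Am B k j i = conj (Am B k i j) := by
  unfold Am Pr
  by_cases h : k.1 ≠ 0 ∧ i = j
  · have h' : k.1 ≠ 0 ∧ j = i := ⟨h.1, h.2.symm⟩
    rw [if_pos h, if_pos h']
    simp [mul_comm, map_ofNat (starRingEnd ℂ) 6]
  · have h' : ¬ (k.1 ≠ 0 ∧ j = i) := fun h2 => h ⟨h2.1, h2.2.symm⟩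
    rw [if_neg h, if_neg h']
    simp [mul_comm]

theorem gramPP (k l : Fin 7 × Fin 6) :
    ∑ i, ∑ j, Pr B k i j * conj (Pr B l i j)
      = ((‖inner ℂ (B k.1 k.2) (B l.1 l.2)‖ ^ 2 : ℝ) : ℂ) := by
  have h1 : inner ℂ (B k.1 k.2) (B l.1 l.2) = ∑ i, (B l.1 l.2) i * conj ((B k.1 k.2) i) := by
    rw [PiLp.inner_apply]
    rfl
  have h2 : ((‖inner ℂ (B k.1 k.2) (B l.1 l.2)‖ ^ 2 : ℝ) : ℂ)
      = conj (inner ℂ (B k.1 k.2) (B l.1 l.2)) * inner ℂ (B k.1 k.2) (B l.1 l.2) := by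
    rw [Complex.conj_mul']
    push_cast
    rfl
  rw [h2, h1, map_sum, Finset.sum_mul_sum]
  refine Finset.sum_congr rfl fun i _ => Finset.sum_congr rfl fun j _ => ?_
  unfold Pr
  simp only [map_mul, Complex.conj_conj]
  ring

theorem trP (k : Fin 7 × Fin 6) : ∑ i, Pr B k i i = 1 := by
  have h1 : inner ℂ (B k.1 k.2) (B k.1 k.2) = ∑ i, (B k.1 k.2) i * conj ((B k.1 k.2) i) := by
    rw [PiLp.inner_apply]
    rfl
  unfold Pr
  rw [← h1, inner_self_eq_norm_sq_to_K, (B k.1).orthonormal.1 k.2]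
  simp


/-- `∑ y k P k` -/
noncomputable def Qm (y : Fin 7 × Fin 6 → ℝ) (i j : Fin 6) : ℂ := ∑ k, (y k : ℂ) * Pr B k i j

theorem sumQQ (y : Fin 7 × Fin 6 → ℝ) :
    ∑ i, ∑ j, Qm B y i j * conj (Qm B y i j)
      = ∑ k, ∑ l, (y k : ℂ) * ((y l : ℂ) *
          ((‖inner ℂ (B k.1 k.2) (B l.1 l.2)‖ ^ 2 : ℝ) : ℂ)) := by
  have h1 : ∀ i j, Qm B y i j * conj (Qm B y i j)
      = ∑ k, ∑ l, (y k : ℂ) * ((y l : ℂ) * (Pr B k i j * conj (Pr B l i j))) := by
    intro i j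
    unfold Qm
    rw [map_sum, Finset.sum_mul_sum]
    refine Finset.sum_congr rfl fun k _ => Finset.sum_congr rfl fun l _ => ?_
    rw [map_mul, Complex.conj_ofReal]
    ring
  calc ∑ i, ∑ j, Qm B y i j * conj (Qm B y i j)
      = ∑ p : Fin 6 × Fin 6, ∑ k, ∑ l,
          (y k : ℂ) * ((y l : ℂ) * (Pr B k p.1 p.2 * conj (Pr B l p.1 p.2))) := by
        rw [Fintype.sum_prod_type]
        exact Finset.sum_congr rfl fun i _ => Finset.sum_congr rfl fun j _ => h1 i j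
    _ = ∑ k, ∑ l, ∑ p : Fin 6 × Fin 6,
          (y k : ℂ) * ((y l : ℂ) * (Pr B k p.1 p.2 * conj (Pr B l p.1 p.2))) := by
        rw [Finset.sum_comm]
        exact Finset.sum_congr rfl fun k _ => Finset.sum_comm
    _ = _ := by
        refine Finset.sum_congr rfl fun k _ => Finset.sum_congr rfl fun l _ => ?_
        rw [← Finset.mul_sum, ← Finset.mul_sum, Fintype.sum_prod_type, gramPP]

theorem trQ (y : Fin 7 × Fin 6 → ℝ) : ∑ i, Qm B y i i = ((∑ k, y k : ℝ) : ℂ) := by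
  unfold Qm
  rw [Finset.sum_comm]
  push_cast
  refine Finset.sum_congr rfl fun k _ => ?_
  rw [← Finset.mul_sum, trP, mul_one]

/-- the sum over one basis -/
noncomputable def Ym (y : Fin 7 × Fin 6 → ℝ) (m : Fin 7) : ℝ := ∑ a, y (m, a)

theorem gramSum (hB : ∀ m m', m ≠ m' → ∀ a b, ‖inner ℂ (B m a) (B m' b)‖ ^ 2 = 1 / 6)
    (y : Fin 7 × Fin 6 → ℝ) :
    ∑ k, ∑ l, y k * (y l * ‖inner ℂ (B k.1 k.2) (B l.1 l.2)‖ ^ 2)
      = ∑ k, y k ^ 2 + ((∑ k, y k) ^ 2 - ∑ m, Ym y m ^ 2) / 6 := by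
  have h1 : ∀ k : Fin 7 × Fin 6, ∑ l : Fin 7 × Fin 6, y l * ‖inner ℂ (B k.1 k.2) (B l.1 l.2)‖ ^ 2
      = y k + ((∑ l, y l) - Ym y k.1) / 6 := by
    rintro ⟨m, a⟩
    have h2 : ∀ m', ∑ b, y (m', b) * ‖inner ℂ (B m a) (B m' b)‖ ^ 2
        = Ym y m' / 6 + if m' = m then y (m, a) - Ym y m / 6 else 0 := by
      intro m'
      by_cases hm : m' = m
      · subst hm
        rw [if_pos rfl]
        have h3 : ∀ b, y (m', b) * ‖inner ℂ (B m' a) (B m' b)‖ ^ 2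
            = if b = a then y (m', a) else 0 := by
          intro b
          rw [orthonormal_iff_ite.1 (B m').orthonormal a b]
          by_cases hb : b = a
          · subst hb; simp
          · rw [if_neg hb, if_neg (Ne.symm hb)]; simp
        rw [Finset.sum_congr rfl fun b _ => h3 b]
        simp
      · rw [if_neg hm, add_zero]
        rw [Finset.sum_congr rfl fun b _ => by rw [hB m m' (Ne.symm hm) a b]]
        rw [← Finset.sum_mul]
        unfold Ym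
        ring
    rw [Fintype.sum_prod_type]
    simp only
    rw [Finset.sum_congr rfl fun m' _ => h2 m', Finset.sum_add_distrib]
    rw [Finset.sum_ite_eq' Finset.univ m, if_pos (Finset.mem_univ _), ← Finset.sum_div]
    have h4 : ∑ m', Ym y m' = ∑ l, y l := by
      rw [Fintype.sum_prod_type]; rfl
    rw [h4]
    ring
  rw [Finset.sum_congr rfl fun k _ => by rw [← Finset.mul_sum, h1 k]]
  have h5 : ∑ k : Fin 7 × Fin 6, y k * Ym y k.1 = ∑ m, Ym y m ^ 2 := by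
    rw [Fintype.sum_prod_type]
    refine Finset.sum_congr rfl fun m _ => ?_
    simp only
    rw [← Finset.sum_mul, pow_two]
    rfl
  have h6 : ∀ k : Fin 7 × Fin 6, y k * (y k + ((∑ l, y l) - Ym y k.1) / 6)
      = y k ^ 2 + (y k * (∑ l, y l)) / 6 - (y k * Ym y k.1) / 6 := by
    intro k; ring
  rw [Finset.sum_congr rfl fun k _ => h6 k, Finset.sum_sub_distrib, Finset.sum_add_distrib,
    ← Finset.sum_div, ← Finset.sum_div, h5, ← Finset.sum_mul]
  ring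

/-- `X y = ∑ y k A k` -/
noncomputable def Xm (y : Fin 7 × Fin 6 → ℝ) (i j : Fin 6) : ℂ := ∑ k, (y k : ℂ) * Am B k i j

theorem Xm_eq (y : Fin 7 × Fin 6 → ℝ) (i j : Fin 6) :
    Xm B y i j = Qm B y i j -
      if i = j then ((((∑ k, y k) - Ym y 0) / 6 : ℝ) : ℂ) else 0 := by
  unfold Xm Qm Am
  by_cases hij : i = j
  · subst hij
    rw [if_pos rfl]
    have h1 : ∀ k : Fin 7 × Fin 6, (y k : ℂ) * (Pr B k i i - if k.1 ≠ 0 ∧ i = i then 1 / 6 else 0)
        = (y k : ℂ) * Pr B k i i - ((if k.1 = 0 then 0 else y k / 6 : ℝ) : ℂ) := by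
      intro k
      by_cases hk : k.1 = 0
      · simp [hk]
      · simp [hk]; ring
    rw [Finset.sum_congr rfl fun k _ => h1 k, Finset.sum_sub_distrib, ← Complex.ofReal_sum]
    have h2 : ∑ k : Fin 7 × Fin 6, (if k.1 = 0 then 0 else y k / 6 : ℝ)
        = ((∑ k, y k) - Ym y 0) / 6 := by
      have h3 : ∑ k, y k = Ym y 0 + ∑ m : Fin 6, Ym y m.succ := by
        rw [Fintype.sum_prod_type]; exact Fin.sum_univ_succ (fun m => Ym y m)
      rw [h3, add_sub_cancel_left, Fintype.sum_prod_type, Fin.sum_univ_succ, Finset.sum_div]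
      simp only [if_true, Finset.sum_const_zero, zero_add, Fin.succ_ne_zero, if_false]
      exact Finset.sum_congr rfl fun m _ => (Finset.sum_div _ _ _).symm
    rw [h2]
  · rw [if_neg hij, sub_zero]
    refine Finset.sum_congr rfl fun k _ => ?_
    rw [if_neg (fun h => hij h.2), sub_zero]

/-- The trace form identity. -/
theorem traceId (hB : ∀ m m', m ≠ m' → ∀ a b, ‖inner ℂ (B m a) (B m' b)‖ ^ 2 = 1 / 6)
    (y : Fin 7 × Fin 6 → ℝ) :
    ∑ i, ∑ j, ‖Xm B y i j‖ ^ 2 = ∑ k, y k ^ 2 - (∑ m : Fin 6, Ym y m.succ ^ 2) / 6 := by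
  set s : ℝ := ((∑ k, y k) - Ym y 0) / 6 with hs
  have h0 : ∀ i j, ((‖Xm B y i j‖ ^ 2 : ℝ) : ℂ) = Qm B y i j * conj (Qm B y i j)
      + if i = j then ((s : ℂ) ^ 2 - s * (Qm B y i i + conj (Qm B y i i))) else 0 := by
    intro i j
    have h1 : ((‖Xm B y i j‖ ^ 2 : ℝ) : ℂ) = Xm B y i j * conj (Xm B y i j) := by
      rw [Complex.mul_conj']
      push_cast
      rfl
    rw [h1, Xm_eq, ← hs]
    by_cases hij : i = j
    · subst hij
      rw [if_pos rfl, if_pos rfl, map_sub, Complex.conj_ofReal]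
      ring
    · rw [if_neg hij, if_neg hij, sub_zero, add_zero]
  have hC : ((∑ i, ∑ j, ‖Xm B y i j‖ ^ 2 : ℝ) : ℂ)
      = ((∑ k, y k ^ 2 - (∑ m : Fin 6, Ym y m.succ ^ 2) / 6 : ℝ) : ℂ) := by
    have h2 : ((∑ i, ∑ j, ‖Xm B y i j‖ ^ 2 : ℝ) : ℂ)
        = ∑ i, ∑ j, Qm B y i j * conj (Qm B y i j)
          + (6 * (s : ℂ) ^ 2 - s * (((∑ k, y k : ℝ) : ℂ) + ((∑ k, y k : ℝ) : ℂ))) := by
      rw [Complex.ofReal_sum]
      have h3 : ∀ i : Fin 6, ((∑ j, ‖Xm B y i j‖ ^ 2 : ℝ) : ℂ)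
          = ∑ j, Qm B y i j * conj (Qm B y i j)
            + ((s : ℂ) ^ 2 - s * (Qm B y i i + conj (Qm B y i i))) := by
        intro i
        rw [Complex.ofReal_sum, Finset.sum_congr rfl fun j _ => h0 i j, Finset.sum_add_distrib,
          Finset.sum_ite_eq Finset.univ i, if_pos (Finset.mem_univ _)]
      rw [Finset.sum_congr rfl fun i _ => h3 i, Finset.sum_add_distrib]
      congr 1
      rw [Finset.sum_sub_distrib, ← Finset.mul_sum, Finset.sum_add_distrib, ← map_sum, trQ,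
        Complex.conj_ofReal]
      simp
    rw [h2, sumQQ]
    have h4 : ∑ k, ∑ l, (y k : ℂ) * ((y l : ℂ) *
          ((‖inner ℂ (B k.1 k.2) (B l.1 l.2)‖ ^ 2 : ℝ) : ℂ))
        = ((∑ k, ∑ l, y k * (y l * ‖inner ℂ (B k.1 k.2) (B l.1 l.2)‖ ^ 2) : ℝ) : ℂ) := by
      push_cast
      rfl
    rw [h4, gramSum B hB]
    have h5 : ∑ m, Ym y m ^ 2 = Ym y 0 ^ 2 + ∑ m : Fin 6, Ym y m.succ ^ 2 := Fin.sum_univ_succ _
    rw [h5, hs]
    push_cast
    ring
  exact_mod_cast hC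

end Vale.Agent.P355
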