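import Vale.Agent.P355.Witt
import Vale.Agent.P355.Trace

/-!
# P355: fields of definition of complete sets of mutually unbiased bases of `ℂ ^ 6`
-/

namespace Vale.Agent.P355

open Complex ComplexConjugate

abbrev Idx : Type := Fin 7 × Fin 6

/-- linear form with coefficients `c` -/
noncomputable def lf {F : Type*} [Field F] (c : Idx → F) : (Idx → F) →ₗ[F] F :=
  ∑ k, c k • (LinearMap.proj k : (Idx → F) →ₗ[F] F)

theorem lf_apply {F : Type*} [Field F] (c y : Idx → F) : lf c y = ∑ k, c k * y k := by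
  unfold lf
  rw [LinearMap.sum_apply]
  rfl

theorem symSum (X : Fin 6 → Fin 6 → ℂ) (hX : ∀ i j, X j i = conj (X i j)) :
    ∑ i, ∑ j, ‖X i j‖ ^ 2 = ∑ i, ∑ j, (if i = j then (X i j).re ^ 2
      else if i < j then 2 * (X i j).re ^ 2 else 2 * (X i j).im ^ 2) := by
  have hn : ∀ i j, ‖X i j‖ ^ 2 = (X i j).re ^ 2 + (X i j).im ^ 2 := by
    intro i j
    rw [← Complex.normSq_eq_norm_sq, Complex.normSq_apply]; ring
  have h1 : ∑ i, ∑ j, (‖X i j‖ ^ 2 + ‖X j i‖ ^ 2)
      = ∑ i, ∑ j, ((if i = j then (X i j).re ^ 2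
          else if i < j then 2 * (X i j).re ^ 2 else 2 * (X i j).im ^ 2)
        + (if j = i then (X j i).re ^ 2
          else if j < i then 2 * (X j i).re ^ 2 else 2 * (X j i).im ^ 2)) := by
    refine Finset.sum_congr rfl fun i _ => Finset.sum_congr rfl fun j _ => ?_
    rw [hn, hn]
    have hre : (X j i).re = (X i j).re := by rw [hX i j, Complex.conj_re]
    have him : (X j i).im = -(X i j).im := by rw [hX i j, Complex.conj_im]
    rcases lt_trichotomy i j with h | h | h
    · rw [if_neg h.ne, if_pos h, if_neg h.ne', if_neg (not_lt.2 h.le), hre, him]; ring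
    · subst h
      have h0 : (X i i).im = 0 := by linarith
      simp [h0]
    · rw [if_neg h.ne', if_neg (not_lt.2 h.le), if_neg h.ne, if_pos h, hre, him]; ring
  have h2 : ∀ f : Fin 6 → Fin 6 → ℝ, ∑ i, ∑ j, (f i j + f j i) = 2 * ∑ i, ∑ j, f i j := by
    intro f
    have h3 : ∑ i, ∑ j, f j i = ∑ i, ∑ j, f i j := Finset.sum_comm
    rw [two_mul]
    nth_rewrite 2 [← h3]
    rw [← Finset.sum_add_distrib]
    exact Finset.sum_congr rfl fun i _ => Finset.sum_add_distrib
  rw [h2 (fun i j => ‖X i j‖ ^ 2), h2 (fun i j => if i = j then (X i j).re ^ 2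
      else if i < j then 2 * (X i j).re ^ 2 else 2 * (X i j).im ^ 2)] at h1
  linarith

/-- the mean over the basis `t + 1` -/
noncomputable def zf (F : Type*) [Field F] (t : Fin 6) : (Idx → F) →ₗ[F] F :=
  lf (fun k => if k.1 = t.succ then 1 / 6 else 0)

theorem zf_apply {F : Type*} [Field F] (t : Fin 6) (y : Idx → F) :
    zf F t y = (∑ a, y (t.succ, a)) / 6 := by
  unfold zf
  rw [lf_apply, Fintype.sum_prod_type, Finset.sum_eq_single t.succ]
  · simp only [if_true]
    rw [← Finset.mul_sum]; ring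
  · intro m _ hm
    simp [hm]
  · intro h; exact absurd (Finset.mem_univ _) h

section

variable (B : Fin 7 → OrthonormalBasis (Fin 6) ℂ (EuclideanSpace ℂ (Fin 6)))

theorem Xm_re (y : Idx → ℝ) (i j : Fin 6) :
    (Xm B y i j).re = ∑ k, (Am B k i j).re * y k := by
  unfold Xm
  rw [Complex.re_sum]
  refine Finset.sum_congr rfl fun k _ => ?_
  rw [Complex.re_ofReal_mul, mul_comm]

theorem Xm_im (y : Idx → ℝ) (i j : Fin 6) :
    (Xm B y i j).im = ∑ k, (Am B k i j).im * y k := by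
  unfold Xm
  rw [Complex.im_sum]
  refine Finset.sum_congr rfl fun k _ => ?_
  rw [Complex.im_ofReal_mul, mul_comm]

theorem Xm_conj (y : Idx → ℝ) (i j : Fin 6) : Xm B y j i = conj (Xm B y i j) := by
  unfold Xm
  rw [map_sum]
  refine Finset.sum_congr rfl fun k _ => ?_
  rw [map_mul, Complex.conj_ofReal, Am_conj]

/-- the identity in coordinates -/
theorem coordId (hB : ∀ m m', m ≠ m' → ∀ a b, ‖inner ℂ (B m a) (B m' b)‖ ^ 2 = 1 / 6)
    (y : Idx → ℝ) :
    ∑ k, y k ^ 2 = ∑ i, ∑ j, (if i = j then (∑ k, (Am B k i j).re * y k) ^ 2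
      else if i < j then 2 * (∑ k, (Am B k i j).re * y k) ^ 2
      else 2 * (∑ k, (Am B k i j).im * y k) ^ 2)
      + ∑ t : Fin 6, 6 * ((∑ a, y (t.succ, a)) / 6) ^ 2 := by
  have h1 := traceId B hB y
  rw [symSum (Xm B y) (Xm_conj B y)] at h1
  simp only [Xm_re, Xm_im] at h1
  rw [h1]
  have h2 : (∑ m : Fin 6, Ym y m.succ ^ 2) / 6
      = ∑ t : Fin 6, 6 * ((∑ a, y (t.succ, a)) / 6) ^ 2 := by
    rw [Finset.sum_div]
    refine Finset.sum_congr rfl fun m _ => ?_
    unfold Ym
    ring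
  rw [h2]
  ring

end

end Vale.Agent.P355
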