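import Vale.Agent.P355.Arith

/-!
# P355: triple products of mutually unbiased bases
-/

namespace P355

/-- mutually unbiased orthonormal bases of `ℂ^d` -/
def MU {d : ℕ} (B C : OrthonormalBasis (Fin d) ℂ (EuclideanSpace ℂ (Fin d))) : Prop :=
  ∀ i j, ‖inner ℂ (B i) (C j)‖ ^ 2 = 1 / (d : ℝ)

/-- the triple product of three vectors (it does not depend on the phases of the vectors) -/
noncomputable def triple {d : ℕ} (u v w : EuclideanSpace ℂ (Fin d)) : ℂ :=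
  inner ℂ u v * inner ℂ v w * inner ℂ w u

theorem triple_not_mem {d N p j : ℕ} (hd : d ≠ 0) (hp : p.Prime) (hv : Odd (padicValNat p d))
    (hj : 1 ≤ j) (hN : N ∣ p ^ j + 1) (u v w : EuclideanSpace ℂ (Fin d))
    (huv : ‖inner ℂ u v‖ ^ 2 = 1 / (d : ℝ)) (hvw : ‖inner ℂ v w‖ ^ 2 = 1 / (d : ℝ))
    (hwu : ‖inner ℂ w u‖ ^ 2 = 1 / (d : ℝ)) :
    triple u v w ∉ Algebra.adjoin ℚ (mu N) := by
  intro hmem
  have hN0 : N ≠ 0 := by
    rintro rfl
    have := zero_dvd_iff.1 hN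
    omega
  have hz : ((d : ℂ) ^ 2 * triple u v w) ∈ Algebra.adjoin ℚ (mu N) :=
    mul_mem (pow_mem (natCast_mem _ d) 2) hmem
  have hdR : (d : ℝ) ≠ 0 := by exact_mod_cast hd
  have hnorm : ‖(d : ℂ) ^ 2 * triple u v w‖ ^ 2 = d := by
    unfold triple
    rw [norm_mul, norm_mul, norm_mul, norm_pow, Complex.norm_natCast]
    have h1 : ((d : ℝ) ^ 2 * (‖inner ℂ u v‖ * ‖inner ℂ v w‖ * ‖inner ℂ w u‖)) ^ 2 =
        (d : ℝ) ^ 4 * (‖inner ℂ u v‖ ^ 2 * ‖inner ℂ v w‖ ^ 2 * ‖inner ℂ w u‖ ^ 2) := by ring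
    rw [h1, huv, hvw, hwu]
    field_simp
  have h2 : ((d : ℂ) ^ 2 * triple u v w) * starRingEnd ℂ ((d : ℂ) ^ 2 * triple u v w) = d := by
    rw [Complex.mul_conj, Complex.normSq_eq_norm_sq, hnorm]
    simp
  have h3 := norm_even hp hj hN0 hN d hd hz h2
  exact (Nat.not_even_iff_odd.2 hv) h3

theorem mub_general {d N p j : ℕ} (hd : d ≠ 0) (hp : p.Prime) (hv : Odd (padicValNat p d))
    (hj : 1 ≤ j) (hN : N ∣ p ^ j + 1)
    (B₁ B₂ B₃ : OrthonormalBasis (Fin d) ℂ (EuclideanSpace ℂ (Fin d)))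
    (h12 : MU B₁ B₂) (h23 : MU B₂ B₃) (h31 : MU B₃ B₁) (a b c : Fin d) :
    triple (B₁ a) (B₂ b) (B₃ c) ∉ Algebra.adjoin ℚ (mu N) :=
  triple_not_mem hd hp hv hj hN _ _ _ (h12 a b) (h23 b c) (h31 c a)

theorem conj_mem_rat {N : ℕ} {x : ℂ} (hx : x ∈ Algebra.adjoin ℚ (mu N)) :
    starRingEnd ℂ x ∈ Algebra.adjoin ℚ (mu N) := by
  induction hx using Algebra.adjoin_induction with
  | mem x hx =>
    refine Algebra.subset_adjoin ?_
    have h1 : x ^ N = 1 := hx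
    change (starRingEnd ℂ x) ^ N = 1
    rw [← map_pow, h1, map_one]
  | algebraMap r =>
    have h1 : starRingEnd ℂ (algebraMap ℚ ℂ r) = algebraMap ℚ ℂ r := by simp
    rw [h1]
    exact Subalgebra.algebraMap_mem _ r
  | add x y _ _ hx hy =>
    rw [map_add]
    exact add_mem hx hy
  | mul x y _ _ hx hy =>
    rw [map_mul]
    exact mul_mem hx hy

theorem hadamard_general {d N p j : ℕ} (hd : d ≠ 0) (hp : p.Prime) (hv : Odd (padicValNat p d))
    (hj : 1 ≤ j) (hN : N ∣ p ^ j + 1) (H G : Matrix (Fin d) (Fin d) ℂ)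
    (hH : ∀ i k, H i k ∈ Algebra.adjoin ℚ (mu N)) (hG : ∀ i k, G i k ∈ Algebra.adjoin ℚ (mu N))
    (a b : Fin d) : ‖(H.conjTranspose * G) a b‖ ^ 2 ≠ d := by
  intro h
  have hN0 : N ≠ 0 := by
    rintro rfl
    have := zero_dvd_iff.1 hN
    omega
  have hz : (H.conjTranspose * G) a b ∈ Algebra.adjoin ℚ (mu N) := by
    rw [Matrix.mul_apply]
    refine sum_mem fun k _ => mul_mem ?_ (hG k b)
    rw [Matrix.conjTranspose_apply]
    exact conj_mem_rat (hH k a)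
  have h2 : ((H.conjTranspose * G) a b) * starRingEnd ℂ ((H.conjTranspose * G) a b) = d := by
    rw [Complex.mul_conj, Complex.normSq_eq_norm_sq, h]
    simp
  have h3 := norm_even hp hj hN0 hN d hd hz h2
  exact (Nat.not_even_iff_odd.2 hv) h3

theorem odd2 : Odd (padicValNat 2 6) := by
  have : Fact (Nat.Prime 2) := ⟨Nat.prime_two⟩
  have h1 : padicValNat 2 6 = 1 := by
    have h2 : (6 : ℕ) = 2 * 3 := by norm_num
    rw [h2, padicValNat.mul (by norm_num) (by norm_num), padicValNat_self,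
      padicValNat.eq_zero_of_not_dvd (by norm_num)]
  rw [h1]
  exact odd_one

theorem odd3 : Odd (padicValNat 3 6) := by
  have : Fact (Nat.Prime 3) := ⟨Nat.prime_three⟩
  have h1 : padicValNat 3 6 = 1 := by
    have h2 : (6 : ℕ) = 3 * 2 := by norm_num
    rw [h2, padicValNat.mul (by norm_num) (by norm_num), padicValNat_self,
      padicValNat.eq_zero_of_not_dvd (by norm_num)]
  rw [h1]
  exact odd_one

end P355
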