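import Mathlib

/-!
# P355: the cancellation trick and the discriminant for quadratic forms
-/

namespace Vale.Agent.P355

/-- Cancellation of squares (sign trick of Bruck and Ryser): linear forms `β i` and distinct
coordinates `e i`; there is a subspace on which `β i = ± y (e i)` for all `i ∈ s`, while the other
coordinates remain arbitrary. -/
theorem signTrick {F κ ι : Type*} [Field F] (h2 : (2 : F) ≠ 0) [DecidableEq κ]
    [DecidableEq ι] (e : ι → κ) (he : Function.Injective e)
    (β : ι → (κ → F) →ₗ[F] F) (s : Finset ι) :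
    ∃ S : Submodule F (κ → F), (∀ y ∈ S, ∀ i ∈ s, (β i y) ^ 2 = (y (e i)) ^ 2) ∧
      ∀ g : κ → F, ∃ y ∈ S, ∀ k, k ∉ s.image e → y k = g k := by
  induction s using Finset.induction_on with
  | empty => exact ⟨⊤, by simp, fun g => ⟨g, trivial, fun k _ => rfl⟩⟩
  | insert j s hj ih =>
    obtain ⟨S, h1, h3⟩ := ih
    obtain ⟨u, huS, hu⟩ := h3 (fun k => if k = e j then 1 else 0)
    have hej : e j ∉ s.image e := by
      intro h
      obtain ⟨i, hi, hij⟩ := Finset.mem_image.1 h
      exact hj (he hij ▸ hi)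
    have huj : u (e j) = 1 := by rw [hu _ hej]; simp
    obtain ⟨ε, hε, hε2⟩ : ∃ ε : F, β j u - ε ≠ 0 ∧ ε ^ 2 = 1 := by
      by_cases h : β j u = 1
      · refine ⟨-1, ?_, by ring⟩
        rw [h]; intro h'; exact h2 (by linear_combination h')
      · exact ⟨1, sub_ne_zero.2 h, by ring⟩
    refine ⟨S ⊓ LinearMap.ker (β j - ε • (LinearMap.proj (e j) : (κ → F) →ₗ[F] F)), ?_, ?_⟩
    · intro y hy i hi
      obtain ⟨hyS, hyk⟩ := Submodule.mem_inf.1 hy
      rcases Finset.mem_insert.1 hi with rfl | hi
      · have h4 : β i y - ε * y (e i) = 0 := by simpa using hyk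
        have h5 : β i y = ε * y (e i) := sub_eq_zero.1 h4
        rw [h5, mul_pow, hε2, one_mul]
      · exact h1 y hyS i hi
    · intro g
      obtain ⟨v, hvS, hv⟩ := h3 g
      refine ⟨v + (-(β j v - ε * v (e j)) / (β j u - ε)) • u,
        Submodule.mem_inf.2 ⟨S.add_mem hvS (S.smul_mem _ huS), ?_⟩, ?_⟩
      · rw [LinearMap.mem_ker]
        simp only [LinearMap.sub_apply, LinearMap.smul_apply, LinearMap.proj_apply, map_add,
          map_smul, Pi.add_apply, Pi.smul_apply, smul_eq_mul, huj]
        field_simp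
        ring
      · intro k hk
        have hk1 : k ∉ s.image e := by
          intro h; exact hk (Finset.image_subset_image (Finset.subset_insert j s) h)
        have hk2 : k ≠ e j := by
          rintro rfl
          exact hk (Finset.mem_image_of_mem e (Finset.mem_insert_self j s))
        rw [Pi.add_apply, Pi.smul_apply, hu k hk1, hv k hk1]
        simp [hk2]

/-- If the sum of squares is the diagonal form `d` in the forms `M`, then
`∏ d * det M ^ 2 = 1`. -/
theorem detSq {F κ : Type*} [Field F] (h2 : (2 : F) ≠ 0) [Fintype κ] [DecidableEq κ]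
    (d : κ → F) (M : Matrix κ κ F)
    (h : ∀ y : κ → F, ∑ k, y k ^ 2 = ∑ j, d j * (M.mulVec y j) ^ 2) :
    (∏ j, d j) * M.det ^ 2 = 1 := by
  have hpol : ∀ y z : κ → F, ∑ k, y k * z k = ∑ j, d j * (M.mulVec y j * M.mulVec z j) := by
    intro y z
    have h3 := h (y + z)
    have h4 := h y
    have h5 := h z
    have e1 : ∑ k, (y + z) k ^ 2 = ∑ k, y k ^ 2 + ∑ k, z k ^ 2 + 2 * ∑ k, y k * z k := by
      rw [Finset.mul_sum, ← Finset.sum_add_distrib, ← Finset.sum_add_distrib]
      refine Finset.sum_congr rfl fun k _ => ?_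
      rw [Pi.add_apply]; ring
    have e2 : ∑ j, d j * (M.mulVec (y + z) j) ^ 2 = ∑ j, d j * (M.mulVec y j) ^ 2
        + ∑ j, d j * (M.mulVec z j) ^ 2 + 2 * ∑ j, d j * (M.mulVec y j * M.mulVec z j) := by
      rw [Finset.mul_sum, ← Finset.sum_add_distrib, ← Finset.sum_add_distrib]
      refine Finset.sum_congr rfl fun k _ => ?_
      rw [Matrix.mulVec_add, Pi.add_apply]; ring
    have h6 : 2 * (∑ k, y k * z k - ∑ j, d j * (M.mulVec y j * M.mulVec z j)) = 0 := by
      linear_combination h3 - h4 - h5 - e1 + e2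
    rcases mul_eq_zero.1 h6 with h7 | h7
    · exact absurd h7 h2
    · exact sub_eq_zero.1 h7
  have hmat : M.transpose * Matrix.diagonal d * M = 1 := by
    ext a b
    have h3 := hpol (Pi.single a 1) (Pi.single b 1)
    rw [Matrix.mul_apply]
    simp only [Matrix.mul_diagonal, Matrix.transpose_apply]
    have h4 : ∀ c j, M.mulVec (Pi.single c 1) j = M j c := by
      intro c j
      rw [Matrix.mulVec_single_one]
      rfl
    have h5 : ∑ k, (Pi.single a (1 : F) : κ → F) k * (Pi.single b (1 : F) : κ → F) k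
        = (1 : Matrix κ κ F) a b := by
      rw [Finset.sum_eq_single a]
      · rw [Pi.single_eq_same, one_mul, Matrix.one_apply, Pi.single_apply]
      · intro k _ hk
        rw [Pi.single_eq_of_ne hk, zero_mul]
      · intro h; exact absurd (Finset.mem_univ _) h
    rw [← h5, h3]
    refine Finset.sum_congr rfl fun j _ => ?_
    rw [h4, h4]; ring
  have h3 := congrArg Matrix.det hmat
  rw [Matrix.det_mul, Matrix.det_mul, Matrix.det_transpose, Matrix.det_diagonal,
    Matrix.det_one] at h3
  linear_combination h3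

end Vale.Agent.P355
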